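import Vale.Agent.P159.TM.Spec.C

/-!
[556] P159, row NUM: the final numbers of part C (907 #15572, #15716).

`n = log (1/y)`, `K = Kn k y`, `M = Mn p y`, `X = K M`.  Order of quantifiers (strong form):
`∃ k₀ (depends on c only), ∀ k ≥ k₀, ∀ C P s (2 < s), ∃ p₀, ∀ p ≥ p₀, ∃ ys, ∀ y ≤ ys`.
-/

open Finset Filter Topology

namespace Vale.Agent.P159.TM.H556

open Vale.Agent.P159.TM.H859 (Mn two_le_Mn le_Mn Mn_le choice)
open Vale.Agent.P159.TM.SpecC (Kn)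

/-- polynomials lose against `e^{-n}` -/
theorem poly_exp (A : ℝ) (Q : ℕ) {ε : ℝ} (hε : 0 < ε) :
    ∃ n0 : ℝ, 1 ≤ n0 ∧ ∀ n : ℝ, n0 ≤ n → A * n ^ Q * Real.exp (-n) ≤ ε := by
  have h := (Real.tendsto_pow_mul_exp_neg_atTop_nhds_zero Q).const_mul A
  rw [mul_zero] at h
  have h2 := h.eventually (gt_mem_nhds hε)
  obtain ⟨N, hN⟩ := Filter.eventually_atTop.1 h2
  refine ⟨max 1 N, le_max_left _ _, fun n hn => ?_⟩
  have := hN n ((le_max_right _ _).trans hn)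
  rw [mul_assoc]
  exact this.le

theorem le_Kn (k : ℕ) (y : ℝ) : (k : ℝ) * Real.log (1 / y) + 1 ≤ (Kn k y : ℝ) := by
  unfold Kn
  push_cast
  have := Nat.le_ceil ((k : ℝ) * Real.log (1 / y))
  linarith

theorem Kn_le (k : ℕ) {y : ℝ} (hn : 0 ≤ Real.log (1 / y)) :
    (Kn k y : ℝ) ≤ (k : ℝ) * Real.log (1 / y) + 2 := by
  unfold Kn
  push_cast
  have := Nat.ceil_lt_add_one (a := (k : ℝ) * Real.log (1 / y)) (by positivity)
  linarith

theorem one_le_Kn (k : ℕ) (y : ℝ) : 1 ≤ Kn k y := by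
  unfold Kn; omega

/-- `Σ_{m=1}^{N} m² ≤ N³` -/
theorem sum_sq_le (N : ℕ) : ∑ m ∈ Icc 1 N, (m : ℝ) ^ 2 ≤ (N : ℝ) ^ 3 := by
  calc ∑ m ∈ Icc 1 N, (m : ℝ) ^ 2 ≤ ∑ _m ∈ Icc 1 N, (N : ℝ) ^ 2 := by
        refine Finset.sum_le_sum fun m hm => ?_
        have : (m : ℝ) ≤ N := by exact_mod_cast (Finset.mem_Icc.1 hm).2
        exact pow_le_pow_left₀ (by positivity) this 2
    _ = (N : ℝ) ^ 3 := by
        rw [Finset.sum_const, Nat.card_Icc]
        simp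
        ring

theorem sq_le_exp {x : ℝ} (hx : 0 ≤ x) : x ^ 2 ≤ Real.exp x := by
  have h := Real.sum_le_exp_of_nonneg hx 4
  simp only [Finset.sum_range_succ, Finset.sum_range_zero, Nat.factorial] at h
  norm_num at h
  nlinarith [sq_nonneg (x - 3), mul_nonneg hx (sq_nonneg (x - 3 / 2)), mul_nonneg hx hx]

/-- the remainder terms: everything which carries `e^{-cK}` or `y²` is polynomial times `y²` -/
theorem rem_bd {C n y K M pb e B0 B1 d1 E : ℝ} {P : ℕ} (hC : 0 ≤ C) (hn : 1 ≤ n) (hy : 0 < y)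
    (hy1 : y ≤ 1) (hK : 1 ≤ K) (hM : 1 ≤ M) (hE0 : 0 ≤ E) (hE : E ≤ y ^ 3)
    (hpb0 : 0 ≤ pb) (hd10 : 0 ≤ d1) (hd11 : d1 ≤ 1)
    (hpb : pb ≤ C * M ^ 2 * E) (he : e ≤ C * n ^ P * (K * M) ^ P * E)
    (hB0 : B0 ≤ C * n ^ P * (K * M) ^ 2 * y) (hB1 : B1 ≤ C * n ^ P * y)
    (hd1 : d1 ≤ C * (K * M) ^ P * E) :
    C * (K * M) ^ 2 * y * pb + (K * M) ^ 2 * (e + B0 * pb + (B0 * pb + B1 * (Real.exp d1 - 1)))
      + C * (K * M) ^ 4 * y ^ 2 ≤ (5 * C ^ 2 + 2 * C) * n ^ P * (K * M) ^ (P + 6) * y ^ 2 := by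
  have hX : 1 ≤ K * M := by nlinarith
  set X : ℝ := K * M with hXdef
  have hMX : M ≤ X := by rw [hXdef]; nlinarith
  have hX0 : 0 ≤ X := by linarith
  have hnP : 1 ≤ n ^ P := one_le_pow₀ hn
  have hXP : 1 ≤ X ^ P := one_le_pow₀ hX
  have hy32 : y ^ 3 ≤ y ^ 2 := pow_le_pow_of_le_one hy.le hy1 (by norm_num)
  have hE2 : E ≤ y ^ 2 := hE.trans hy32
  have hEy : E ≤ y := hE2.trans (by nlinarith)
  have hE1 : E ≤ 1 := hEy.trans hy1
  have hM2 : M ^ 2 ≤ X ^ 2 := pow_le_pow_left₀ (by linarith) hMX 2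
  -- `pb ≤ C X² E`
  have hpb' : pb ≤ C * X ^ 2 * E :=
    hpb.trans (mul_le_mul_of_nonneg_right (mul_le_mul_of_nonneg_left hM2 hC) hE0)
  have hX2 : 1 ≤ X ^ 2 := one_le_pow₀ hX
  have hX24 : X ^ 4 ≤ X ^ (P + 6) := pow_le_pow_right₀ hX (by omega)
  have hXa : X ^ (P + 2) ≤ X ^ (P + 6) := pow_le_pow_right₀ hX (by omega)
  have hXb : X ^ 6 ≤ X ^ (P + 6) := pow_le_pow_right₀ hX (by omega)
  set Z : ℝ := n ^ P * X ^ (P + 6) * y ^ 2 with hZ
  have hy2 : 0 ≤ y ^ 2 := by positivity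
  have hZ4 : X ^ 4 * y ^ 2 ≤ Z := by
    rw [hZ]
    refine mul_le_mul_of_nonneg_right ?_ hy2
    calc X ^ 4 = 1 * X ^ 4 := (one_mul _).symm
      _ ≤ n ^ P * X ^ (P + 6) := mul_le_mul hnP hX24 (by positivity) (by positivity)
  -- the five terms
  have t1 : C * X ^ 2 * y * pb ≤ C ^ 2 * Z := by
    calc C * X ^ 2 * y * pb ≤ C * X ^ 2 * y * (C * X ^ 2 * E) :=
          mul_le_mul_of_nonneg_left hpb' (by positivity)
      _ ≤ C * X ^ 2 * y * (C * X ^ 2 * y) := by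
          refine mul_le_mul_of_nonneg_left ?_ (by positivity)
          exact mul_le_mul_of_nonneg_left hEy (by positivity)
      _ = C ^ 2 * (X ^ 4 * y ^ 2) := by ring
      _ ≤ C ^ 2 * Z := mul_le_mul_of_nonneg_left hZ4 (by positivity)
  have t2 : X ^ 2 * e ≤ C * Z := by
    calc X ^ 2 * e ≤ X ^ 2 * (C * n ^ P * X ^ P * E) :=
          mul_le_mul_of_nonneg_left he (by positivity)
      _ ≤ X ^ 2 * (C * n ^ P * X ^ P * y ^ 2) := by
          refine mul_le_mul_of_nonneg_left ?_ (by positivity)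
          exact mul_le_mul_of_nonneg_left hE2 (by positivity)
      _ = C * (n ^ P * X ^ (P + 2) * y ^ 2) := by ring
      _ ≤ C * Z := by
          refine mul_le_mul_of_nonneg_left ?_ hC
          exact mul_le_mul_of_nonneg_right (mul_le_mul_of_nonneg_left hXa (by positivity)) hy2
  have t3 : X ^ 2 * (B0 * pb) ≤ C ^ 2 * Z := by
    calc X ^ 2 * (B0 * pb) ≤ X ^ 2 * ((C * n ^ P * X ^ 2 * y) * (C * X ^ 2 * E)) :=
          mul_le_mul_of_nonneg_left (mul_le_mul hB0 hpb' hpb0 (by positivity)) (by positivity)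
      _ ≤ X ^ 2 * ((C * n ^ P * X ^ 2 * y) * (C * X ^ 2 * y)) := by
          refine mul_le_mul_of_nonneg_left ?_ (by positivity)
          refine mul_le_mul_of_nonneg_left ?_ (by positivity)
          exact mul_le_mul_of_nonneg_left hEy (by positivity)
      _ = C ^ 2 * (n ^ P * X ^ 6 * y ^ 2) := by ring
      _ ≤ C ^ 2 * Z := by
          refine mul_le_mul_of_nonneg_left ?_ (by positivity)
          exact mul_le_mul_of_nonneg_right (mul_le_mul_of_nonneg_left hXb (by positivity)) hy2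
  have hexp : Real.exp d1 - 1 ≤ 2 * d1 := by
    have h := Real.exp_bound_div_one_sub_of_interval hd10 (x := d1)
    have h2 := Real.abs_exp_sub_one_sub_id_le (x := d1) (by rw [abs_of_nonneg hd10]; exact hd11)
    have h3 := (abs_le.1 h2).2
    nlinarith
  have t4 : X ^ 2 * (B1 * (Real.exp d1 - 1)) ≤ 2 * C ^ 2 * Z := by
    have h1 : B1 * (Real.exp d1 - 1) ≤ (C * n ^ P * y) * (2 * (C * X ^ P * y)) := by
      have : Real.exp d1 - 1 ≤ 2 * (C * X ^ P * y) := by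
        refine hexp.trans (mul_le_mul_of_nonneg_left (hd1.trans ?_) (by norm_num))
        exact mul_le_mul_of_nonneg_left hEy (by positivity)
      refine mul_le_mul hB1 this ?_ (by positivity)
      have := Real.add_one_le_exp d1
      linarith
    calc X ^ 2 * (B1 * (Real.exp d1 - 1)) ≤ X ^ 2 * ((C * n ^ P * y) * (2 * (C * X ^ P * y))) :=
          mul_le_mul_of_nonneg_left h1 (by positivity)
      _ = 2 * C ^ 2 * (n ^ P * X ^ (P + 2) * y ^ 2) := by ring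
      _ ≤ 2 * C ^ 2 * Z := by
          refine mul_le_mul_of_nonneg_left ?_ (by positivity)
          exact mul_le_mul_of_nonneg_right (mul_le_mul_of_nonneg_left hXa (by positivity)) hy2
  have t5 : C * X ^ 4 * y ^ 2 ≤ C * Z := by
    rw [mul_assoc]; exact mul_le_mul_of_nonneg_left hZ4 hC
  calc C * X ^ 2 * y * pb + X ^ 2 * (e + B0 * pb + (B0 * pb + B1 * (Real.exp d1 - 1)))
        + C * X ^ 4 * y ^ 2
      = C * X ^ 2 * y * pb + X ^ 2 * e + X ^ 2 * (B0 * pb) + X ^ 2 * (B0 * pb)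
        + X ^ 2 * (B1 * (Real.exp d1 - 1)) + C * X ^ 4 * y ^ 2 := by ring
    _ ≤ C ^ 2 * Z + C * Z + C ^ 2 * Z + C ^ 2 * Z + 2 * C ^ 2 * Z + C * Z := by linarith
    _ = (5 * C ^ 2 + 2 * C) * n ^ P * X ^ (P + 6) * y ^ 2 := by rw [hZ]; ring


/-- the sum over the charges `1 ≤ m ≤ m1`, `m1 = X²` -/
theorem sum_bd {X R H G1 G2 w : ℝ} {m1 : ℕ} {g D : ℕ → ℝ} (hm1 : (m1 : ℝ) = X ^ 2)
    (hm1pos : 1 ≤ m1) (hR0 : 0 ≤ R) (hH : 0 ≤ H) (hG2 : 0 ≤ G2) (hg1 : g 1 ≤ G1)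
    (hg2 : ∀ m, 2 ≤ m → g m ≤ G2) (hD : ∀ m, 1 ≤ m → D m + w ≤ R + H * g m) :
    ∑ m ∈ Icc 1 m1, (m : ℝ) ^ 2 * (D m + w) ≤ R * X ^ 6 + H * (G1 + X ^ 6 * G2) := by
  have h6 : (m1 : ℝ) ^ 3 = X ^ 6 := by rw [hm1]; ring
  have hg : ∑ m ∈ Icc 1 m1, (m : ℝ) ^ 2 * g m ≤ G1 + X ^ 6 * G2 := by
    rw [← Finset.add_sum_Ioc_eq_sum_Icc hm1pos]
    refine add_le_add (by simpa using hg1) ?_
    calc ∑ m ∈ Ioc 1 m1, (m : ℝ) ^ 2 * g m
        ≤ ∑ m ∈ Ioc 1 m1, (m : ℝ) ^ 2 * G2 := by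
          refine Finset.sum_le_sum fun m hm => ?_
          refine mul_le_mul_of_nonneg_left (hg2 m ?_) (by positivity)
          have := (Finset.mem_Ioc.1 hm).1
          omega
      _ = (∑ m ∈ Ioc 1 m1, (m : ℝ) ^ 2) * G2 := by rw [Finset.sum_mul]
      _ ≤ (∑ m ∈ Icc 1 m1, (m : ℝ) ^ 2) * G2 := by
          refine mul_le_mul_of_nonneg_right ?_ hG2
          refine Finset.sum_le_sum_of_subset_of_nonneg Finset.Ioc_subset_Icc_self ?_
          intro i _ _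
          positivity
      _ ≤ X ^ 6 * G2 := by
          refine mul_le_mul_of_nonneg_right ((sum_sq_le m1).trans (le_of_eq h6)) hG2
  calc ∑ m ∈ Icc 1 m1, (m : ℝ) ^ 2 * (D m + w)
      ≤ ∑ m ∈ Icc 1 m1, (m : ℝ) ^ 2 * (R + H * g m) := by
        refine Finset.sum_le_sum fun m hm => ?_
        exact mul_le_mul_of_nonneg_left (hD m (Finset.mem_Icc.1 hm).1) (by positivity)
    _ = R * (∑ m ∈ Icc 1 m1, (m : ℝ) ^ 2) + H * ∑ m ∈ Icc 1 m1, (m : ℝ) ^ 2 * g m := by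
        rw [Finset.mul_sum, Finset.mul_sum, ← Finset.sum_add_distrib]
        refine Finset.sum_congr rfl fun m _ => by ring
    _ ≤ R * X ^ 6 + H * (G1 + X ^ 6 * G2) :=
        add_le_add (mul_le_mul_of_nonneg_left ((sum_sq_le m1).trans (le_of_eq h6)) hR0)
          (mul_le_mul_of_nonneg_left hg hH)

/-- the two gain terms -/
theorem gain_bd {a0 C n y K M s x k K0 B1 : ℝ} {P : ℕ} (ha0 : 0 ≤ a0) (hC : 0 ≤ C)
    (hn : 1 ≤ n) (hy : 0 < y) (hk : 0 ≤ k) (hK : 0 < K) (hM : 0 < M) (hs : 2 < s)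
    (hKhi : K ≤ (k + 2) * n) (hB1 : B1 ≤ C * n ^ P * y)
    (hK0 : K0 = 16 * a0 * (C ^ 2 + 1) * (k + 2) ^ 6 + 1)
    (hx : x = ((k + 2) * n / M) ^ s * M ^ 2) (hgx : K0 * n ^ (P + 6) * x ≤ 1 / 2) :
    a0 * (C * (K * M) ^ 2 * B1 * ((K / M) ^ s + (K * M) ^ 6 * (K / M) ^ (4 * s)))
      ≤ y * K ^ 2 / 16 := by
  have hn0 : 0 < n := by linarith
  have hx0 : 0 ≤ x := by rw [hx]; positivity
  have hKM0 : 0 ≤ K / M := by positivity
  have hn6 : 1 ≤ n ^ (P + 6) := one_le_pow₀ hn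
  have hk6 : 1 ≤ (k + 2) ^ 6 := one_le_pow₀ (by linarith)
  have hK01 : 1 ≤ K0 := by
    rw [hK0]
    have : 0 ≤ 16 * a0 * (C ^ 2 + 1) * (k + 2) ^ 6 := by positivity
    linarith
  have hx1 : x ≤ 1 := by
    have h1 : 1 ≤ K0 * n ^ (P + 6) := by
      calc (1 : ℝ) = 1 * 1 := by norm_num
        _ ≤ K0 * n ^ (P + 6) := mul_le_mul hK01 hn6 (by norm_num) (by linarith)
    have h2 : x ≤ K0 * n ^ (P + 6) * x := le_mul_of_one_le_left hx0 h1
    linarith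
  have hKMs : (K / M) ^ s * M ^ 2 ≤ x := by
    rw [hx]
    refine mul_le_mul_of_nonneg_right ?_ (by positivity)
    refine Real.rpow_le_rpow hKM0 ?_ (by linarith)
    exact div_le_div_of_nonneg_right hKhi hM.le
  have hu0 : 0 ≤ (K / M) ^ s * M ^ 2 := by positivity
  have hx4 : x ^ 4 ≤ x := by
    calc x ^ 4 ≤ x ^ 1 := pow_le_pow_of_le_one hx0 hx1 (by norm_num)
      _ = x := pow_one x
  have hu4 : ((K / M) ^ s * M ^ 2) ^ 4 ≤ x := (pow_le_pow_left₀ hu0 hKMs 4).trans hx4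
  have hK6 : K ^ 6 ≤ (k + 2) ^ 6 * n ^ 6 := by
    rw [← mul_pow]; exact pow_le_pow_left₀ hK.le hKhi 6
  have h4s : (K / M) ^ (4 * s) = ((K / M) ^ s) ^ 4 := by
    rw [← Real.rpow_natCast ((K / M) ^ s) 4, ← Real.rpow_mul hKM0]
    congr 1
    push_cast; ring
  have hB1' : C * B1 ≤ C ^ 2 * n ^ P * y := by
    calc C * B1 ≤ C * (C * n ^ P * y) := mul_le_mul_of_nonneg_left hB1 hC
      _ = C ^ 2 * n ^ P * y := by ring
  have hW0 : 0 ≤ x * (y * K ^ 2) := by positivity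
  have hfin : (a0 * (C ^ 2 + 1) * (k + 2) ^ 6) * n ^ (P + 6) * (x * (y * K ^ 2)) ≤
      y * K ^ 2 / 32 := by
    have h1 : (a0 * (C ^ 2 + 1) * (k + 2) ^ 6) * n ^ (P + 6) * x ≤ 1 / 32 := by
      have h2 : 16 * ((a0 * (C ^ 2 + 1) * (k + 2) ^ 6) * n ^ (P + 6) * x) ≤
          K0 * n ^ (P + 6) * x := by
        rw [hK0]
        have : 0 ≤ n ^ (P + 6) * x := by positivity
        calc 16 * ((a0 * (C ^ 2 + 1) * (k + 2) ^ 6) * n ^ (P + 6) * x)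
            = (16 * a0 * (C ^ 2 + 1) * (k + 2) ^ 6) * (n ^ (P + 6) * x) := by ring
          _ ≤ (16 * a0 * (C ^ 2 + 1) * (k + 2) ^ 6 + 1) * (n ^ (P + 6) * x) :=
            mul_le_mul_of_nonneg_right (by linarith) this
          _ = _ := by ring
      linarith
    calc (a0 * (C ^ 2 + 1) * (k + 2) ^ 6) * n ^ (P + 6) * (x * (y * K ^ 2))
        = ((a0 * (C ^ 2 + 1) * (k + 2) ^ 6) * n ^ (P + 6) * x) * (y * K ^ 2) := by ring
      _ ≤ (1 / 32) * (y * K ^ 2) := mul_le_mul_of_nonneg_right h1 (by positivity)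
      _ = y * K ^ 2 / 32 := by ring
  have hii : a0 * (C * (K * M) ^ 2 * B1 * (K / M) ^ s) ≤ y * K ^ 2 / 32 := by
    refine le_trans ?_ hfin
    calc a0 * (C * (K * M) ^ 2 * B1 * (K / M) ^ s)
        = (C * B1) * (a0 * K ^ 2 * ((K / M) ^ s * M ^ 2)) := by ring
      _ ≤ (C ^ 2 * n ^ P * y) * (a0 * K ^ 2 * x) :=
          mul_le_mul hB1' (mul_le_mul_of_nonneg_left hKMs (by positivity)) (by positivity)
            (by positivity)
      _ = (a0 * C ^ 2 * 1) * (n ^ P) * (x * (y * K ^ 2)) := by ring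
      _ ≤ (a0 * (C ^ 2 + 1) * (k + 2) ^ 6) * (n ^ (P + 6)) * (x * (y * K ^ 2)) := by
          refine mul_le_mul_of_nonneg_right ?_ hW0
          refine mul_le_mul ?_ (pow_le_pow_right₀ hn (by omega)) (by positivity)
            (by positivity)
          refine mul_le_mul ?_ hk6 (by norm_num) (by positivity)
          exact mul_le_mul_of_nonneg_left (by linarith) ha0
  have hiii : a0 * (C * (K * M) ^ 2 * B1 * ((K * M) ^ 6 * (K / M) ^ (4 * s))) ≤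
      y * K ^ 2 / 32 := by
    refine le_trans ?_ hfin
    calc a0 * (C * (K * M) ^ 2 * B1 * ((K * M) ^ 6 * (K / M) ^ (4 * s)))
        = (C * B1) * (a0 * K ^ 2 * K ^ 6 * ((K / M) ^ s * M ^ 2) ^ 4) := by
          rw [h4s]; ring
      _ ≤ (C ^ 2 * n ^ P * y) * (a0 * K ^ 2 * ((k + 2) ^ 6 * n ^ 6) * x) := by
          refine mul_le_mul hB1' ?_ (by positivity) (by positivity)
          refine mul_le_mul ?_ hu4 (by positivity) (by positivity)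
          exact mul_le_mul_of_nonneg_left hK6 (by positivity)
      _ = (a0 * C ^ 2 * (k + 2) ^ 6) * (n ^ (P + 6)) * (x * (y * K ^ 2)) := by ring
      _ ≤ (a0 * (C ^ 2 + 1) * (k + 2) ^ 6) * (n ^ (P + 6)) * (x * (y * K ^ 2)) := by
          refine mul_le_mul_of_nonneg_right ?_ hW0
          refine mul_le_mul_of_nonneg_right ?_ (by positivity)
          refine mul_le_mul_of_nonneg_right ?_ (by positivity)
          exact mul_le_mul_of_nonneg_left (by linarith) ha0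
  calc a0 * (C * (K * M) ^ 2 * B1 * ((K / M) ^ s + (K * M) ^ 6 * (K / M) ^ (4 * s)))
      = a0 * (C * (K * M) ^ 2 * B1 * (K / M) ^ s)
        + a0 * (C * (K * M) ^ 2 * B1 * ((K * M) ^ 6 * (K / M) ^ (4 * s))) := by ring
    _ ≤ y * K ^ 2 / 32 + y * K ^ 2 / 32 := add_le_add hii hiii
    _ = y * K ^ 2 / 16 := by ring

/-- sizes of `K = Kn k y` and `M = Mn p y` in terms of `n = log (1/y)` -/
theorem sizes {k p : ℕ} {y n K M : ℝ} (hk : (1 : ℝ) ≤ k) (hy : 0 < y) (hy1 : y ≤ 1)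
    (hn : n = Real.log (1 / y)) (hn1 : 1 ≤ n) (hK : K = (Kn k y : ℝ)) (hM : M = (Mn p y : ℝ)) :
    (k : ℝ) * n ≤ K ∧ K ≤ ((k : ℝ) + 2) * n ∧ n ≤ K ∧ 1 ≤ K ∧ n ^ p ≤ M ∧ 2 ≤ M ∧
      K * M ≤ (3 * ((k : ℝ) + 2)) * n ^ (p + 1) := by
  have hKlo : (k : ℝ) * n + 1 ≤ K := by rw [hK, hn]; exact le_Kn k y
  have hKhi : K ≤ (k : ℝ) * n + 2 := by
    rw [hK, hn]
    exact Kn_le k (by rw [← hn]; linarith)
  have hkn : n ≤ (k : ℝ) * n := le_mul_of_one_le_left (by linarith) hk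
  have hKhi' : K ≤ ((k : ℝ) + 2) * n := by
    have e : ((k : ℝ) + 2) * n = k * n + 2 * n := by ring
    rw [e]; linarith
  have hMlo : n ^ p ≤ M := by rw [hM, hn]; exact le_Mn p y
  have hMhi : M ≤ 3 * n ^ p := by
    have h1 := Mn_le p hy hy1
    rw [← hn, ← hM] at h1
    have h2 : 1 ≤ n ^ p := one_le_pow₀ hn1
    linarith
  have hM2 : 2 ≤ M := by rw [hM]; exact_mod_cast two_le_Mn p y
  refine ⟨by linarith, hKhi', by linarith, by linarith, hMlo, hM2, ?_⟩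
  calc K * M ≤ (((k : ℝ) + 2) * n) * (3 * n ^ p) :=
        mul_le_mul hKhi' hMhi (by linarith) (by positivity)
    _ = (3 * ((k : ℝ) + 2)) * n ^ (p + 1) := by ring

/-- **NUM** (907 #15716, 164 #15990). `a₀ = (64/3) π²`, `a₁ = 8 π² K₀`. -/
theorem num {c : ℝ} (hc : 0 < c) :
    ∃ k0 : ℕ, ∀ k : ℕ, k0 ≤ k → ∀ (C a0 a1 : ℝ) (P : ℕ) (s : ℝ), 0 ≤ C → 0 ≤ a0 → 0 ≤ a1 →
    2 < s → ∃ p0 : ℕ, ∀ p : ℕ, p0 ≤ p → ∃ ys : ℝ, 0 < ys ∧ ys < 1 ∧ ∀ y : ℝ, 0 < y → y ≤ ys →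
    ∀ (n K M : ℝ), n = Real.log (1 / y) → K = (Kn k y : ℝ) → M = (Mn p y : ℝ) →
    C * (K * M) ^ 2 * y ≤ 1 / 2 ∧ y / 4 * K ^ 2 ≤ 1 / 2 ∧
    ∀ (pb e B0 B1 d1 : ℝ) (g D : ℕ → ℝ), 0 ≤ pb → 0 ≤ B1 → 0 ≤ d1 →
      pb ≤ C * M ^ 2 * Real.exp (-(c * K)) →
      e ≤ C * n ^ P * (K * M) ^ P * Real.exp (-(c * K)) →
      B0 ≤ C * n ^ P * (K * M) ^ 2 * y →
      B1 ≤ C * n ^ P * y →
      d1 ≤ C * (K * M) ^ P * Real.exp (-(c * K)) →
      g 1 ≤ (K / M) ^ s → (∀ m, 2 ≤ m → g m ≤ (K / M) ^ (4 * s)) →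
      (∀ m, 1 ≤ m → D m ≤ C * (K * M) ^ 2 * y * pb + (K * M) ^ 2 *
        (e + B0 * pb + (B0 * pb + B1 * (Real.exp d1 - 1) + C * B1 * g m))) →
      a0 * ∑ m ∈ Icc 1 ((Kn k y * Mn p y) ^ 2),
          (m : ℝ) ^ 2 * (D m + C * (K * M) ^ 4 * y ^ 2)
        + a1 * Real.exp (-(K * M) ^ 2)
        ≤ y / 4 * K ^ 2 := by
  refine ⟨⌈3 / c⌉₊ + 1, fun k hk C a0 a1 P s hC ha0 ha1 hs => ?_⟩
  have hk1 : (1 : ℝ) ≤ k := by exact_mod_cast (le_trans (by omega) hk)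
  have hck : 3 ≤ c * k := by
    have h1 : (⌈3 / c⌉₊ : ℝ) ≤ k := by
      exact_mod_cast (le_trans (Nat.le_succ _) hk)
    have h2 : 3 / c ≤ k := (Nat.le_ceil _).trans h1
    rw [div_le_iff₀ hc] at h2
    linarith
  obtain ⟨K0, hK0⟩ : ∃ K0 : ℝ, K0 = 16 * a0 * (C ^ 2 + 1) * ((k : ℝ) + 2) ^ 6 + 1 := ⟨_, rfl⟩
  obtain ⟨p0, n1, hn1, hch⟩ := choice hs K0 ((P + 6 : ℕ) : ℝ) (C1 := (k : ℝ) + 2) (by positivity)
  refine ⟨p0, fun p hp => ?_⟩
  obtain ⟨A, hA⟩ : ∃ A : ℝ, A = 5 * C ^ 2 + 2 * C := ⟨_, rfl⟩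
  have hA0 : 0 ≤ A := by rw [hA]; positivity
  obtain ⟨a, ha⟩ : ∃ a : ℝ, a = 3 * ((k : ℝ) + 2) := ⟨_, rfl⟩
  have ha1' : 1 ≤ a := by rw [ha]; linarith
  obtain ⟨n2, hn2, hpe⟩ := poly_exp (16 * a0 * A * a ^ (P + 12))
    (P + (p + 1) * (P + 12)) one_pos
  obtain ⟨n3, hn3, hpe3⟩ := poly_exp (8 * a1) 0 one_pos
  obtain ⟨n4, hn4, hpe4⟩ := poly_exp (C * a ^ P) ((p + 1) * P) one_pos
  obtain ⟨n5, hn5, hpe5⟩ := poly_exp ((C + 1) * a ^ 2) ((p + 1) * 2) (one_half_pos)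
  obtain ⟨N, hN⟩ : ∃ N : ℝ, N = max (max n1 n2) (max n3 (max n4 n5)) := ⟨_, rfl⟩
  refine ⟨min (1 / 2) (Real.exp (-N)), by positivity,
    lt_of_le_of_lt (min_le_left _ _) (by norm_num), ?_⟩
  intro y hy hyy n K M hn hK hM
  have hy1 : y ≤ 1 := (hyy.trans (min_le_left _ _)).trans (by norm_num)
  have hyN : y ≤ Real.exp (-N) := hyy.trans (min_le_right _ _)
  have hnN : N ≤ n := by
    rw [hn, one_div, Real.log_inv]
    have := Real.log_le_log hy hyN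
    rw [Real.log_exp] at this
    linarith
  have hyn : y = Real.exp (-n) := by
    rw [hn, one_div, Real.log_inv, neg_neg, Real.exp_log hy]
  have hnn1 : n1 ≤ n := by
    rw [hN] at hnN; exact ((le_max_left _ _).trans (le_max_left _ _)).trans hnN
  have hnn2 : n2 ≤ n := by
    rw [hN] at hnN; exact ((le_max_right _ _).trans (le_max_left _ _)).trans hnN
  have hnn3 : n3 ≤ n := by
    rw [hN] at hnN; exact ((le_max_left _ _).trans (le_max_right _ _)).trans hnN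
  have hnn4 : n4 ≤ n := by
    rw [hN] at hnN
    exact (((le_max_left _ _).trans (le_max_right _ _)).trans (le_max_right _ _)).trans hnN
  have hnn5 : n5 ≤ n := by
    rw [hN] at hnN
    exact (((le_max_right _ _).trans (le_max_right _ _)).trans (le_max_right _ _)).trans hnN
  have hnone : 1 ≤ n := hn1.trans hnn1
  have hn0 : 0 < n := by linarith
  obtain ⟨hKlo, hKhi, hKn, hK1, hMlo, hM2, hXhi⟩ := sizes hk1 hy hy1 hn hnone hK hM
  rw [← ha] at hXhi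
  have hK0' : 0 < K := by linarith
  have hM1 : 1 ≤ M := by linarith
  have hM0 : 0 < M := by linarith
  have hX1 : 1 ≤ K * M := by
    calc (1 : ℝ) = 1 * 1 := by norm_num
      _ ≤ K * M := mul_le_mul hK1 hM1 (by norm_num) hK0'.le
  have hX0 : 0 ≤ K * M := by linarith
  have hKX : K ≤ K * M := le_mul_of_one_le_right hK0'.le hM1
  -- the two side conditions
  have hX2 : (K * M) ^ 2 ≤ a ^ 2 * n ^ ((p + 1) * 2) := by
    calc (K * M) ^ 2 ≤ (a * n ^ (p + 1)) ^ 2 := pow_le_pow_left₀ hX0 hXhi 2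
      _ = _ := by rw [mul_pow, ← pow_mul]
  have hside : (C + 1) * (K * M) ^ 2 * y ≤ 1 / 2 := by
    have h1 := hpe5 n hnn5
    rw [← hyn] at h1
    refine le_trans ?_ h1
    refine mul_le_mul_of_nonneg_right ?_ hy.le
    rw [mul_assoc]
    exact mul_le_mul_of_nonneg_left hX2 (by linarith)
  have hX2y : 0 ≤ (K * M) ^ 2 * y := by positivity
  have hs1 : C * (K * M) ^ 2 * y ≤ 1 / 2 := by
    have e : (C + 1) * (K * M) ^ 2 * y = C * (K * M) ^ 2 * y + (K * M) ^ 2 * y := by ring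
    linarith
  have hs2 : y / 4 * K ^ 2 ≤ 1 / 2 := by
    have h1 : K ^ 2 * y ≤ (K * M) ^ 2 * y :=
      mul_le_mul_of_nonneg_right (pow_le_pow_left₀ hK0'.le hKX 2) hy.le
    have h2 : 0 ≤ C * (K * M) ^ 2 * y := by positivity
    have e : (C + 1) * (K * M) ^ 2 * y = C * (K * M) ^ 2 * y + (K * M) ^ 2 * y := by ring
    have h3 : 0 ≤ K ^ 2 * y := by positivity
    have e2 : y / 4 * K ^ 2 = (K ^ 2 * y) / 4 := by ring
    rw [e2]; linarith
  refine ⟨hs1, hs2, ?_⟩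
  intro pb e B0 B1 d1 g D hpb0 hB10 hd10 hpb he hB0 hB1 hd1 hg1 hg2 hD
  -- `e^{-cK} ≤ y³`
  obtain ⟨E, hE⟩ : ∃ E : ℝ, E = Real.exp (-(c * K)) := ⟨_, rfl⟩
  rw [← hE] at hpb he hd1
  have hE0 : 0 ≤ E := by rw [hE]; exact Real.exp_nonneg _
  have hE3 : E ≤ y ^ 3 := by
    have h1 : y ^ 3 = Real.exp (-(3 * n)) := by
      rw [hyn, ← Real.exp_nat_mul]; congr 1; push_cast; ring
    rw [h1, hE]
    refine Real.exp_le_exp.2 (neg_le_neg ?_)
    calc 3 * n ≤ (c * k) * n := mul_le_mul_of_nonneg_right hck hn0.le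
      _ = c * (k * n) := by ring
      _ ≤ c * K := mul_le_mul_of_nonneg_left hKlo hc.le
  have hEy : E ≤ y := hE3.trans (by
    calc y ^ 3 ≤ y ^ 1 := pow_le_pow_of_le_one hy.le hy1 (by norm_num)
      _ = y := pow_one y)
  have hd11 : d1 ≤ 1 := by
    have h1 := hpe4 n hnn4
    rw [← hyn] at h1
    refine hd1.trans (le_trans ?_ h1)
    refine (mul_le_mul_of_nonneg_left hEy (by positivity)).trans ?_
    refine mul_le_mul_of_nonneg_right ?_ hy.le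
    rw [mul_assoc]
    refine mul_le_mul_of_nonneg_left ?_ hC
    calc (K * M) ^ P ≤ (a * n ^ (p + 1)) ^ P := pow_le_pow_left₀ hX0 hXhi P
      _ = a ^ P * n ^ ((p + 1) * P) := by rw [mul_pow, ← pow_mul]
  -- the remainder
  have hR := rem_bd (P := P) hC hnone hy hy1 hK1 hM1 hE0 hE3 hpb0 hd10 hd11 hpb he hB0
    hB1 hd1
  rw [← hA] at hR
  obtain ⟨R, hRdef⟩ : ∃ R : ℝ, R = A * n ^ P * (K * M) ^ (P + 6) * y ^ 2 := ⟨_, rfl⟩
  rw [← hRdef] at hR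
  have hDm : ∀ m, 1 ≤ m → D m + C * (K * M) ^ 4 * y ^ 2 ≤
      R + C * (K * M) ^ 2 * B1 * g m := by
    intro m hm
    have h1 := hD m hm
    have h2 : C * (K * M) ^ 2 * y * pb + (K * M) ^ 2 *
        (e + B0 * pb + (B0 * pb + B1 * (Real.exp d1 - 1) + C * B1 * g m))
        = (C * (K * M) ^ 2 * y * pb + (K * M) ^ 2 *
          (e + B0 * pb + (B0 * pb + B1 * (Real.exp d1 - 1))))
          + C * (K * M) ^ 2 * B1 * g m := by ring
    linarith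
  -- sum over `m`
  have hm1X : (((Kn k y * Mn p y) ^ 2 : ℕ) : ℝ) = (K * M) ^ 2 := by rw [hK, hM]; push_cast; ring
  have hm1pos : 1 ≤ (Kn k y * Mn p y) ^ 2 := by
    have : (1 : ℝ) ≤ (((Kn k y * Mn p y) ^ 2 : ℕ) : ℝ) := by rw [hm1X]; exact one_le_pow₀ hX1
    exact_mod_cast this
  have hcB : 0 ≤ C * (K * M) ^ 2 * B1 := by positivity
  have hR0 : 0 ≤ R := by rw [hRdef]; positivity
  have hsum := sum_bd (w := C * (K * M) ^ 4 * y ^ 2) (G2 := (K / M) ^ (4 * s)) hm1X hm1pos hR0 hcB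
    (by positivity) hg1 hg2 hDm
  have hgain := hch n hnn1 M ((pow_le_pow_right₀ hnone hp).trans hMlo)
  have hgx : K0 * n ^ (P + 6) * ((((k : ℝ) + 2) * n / M) ^ s * M ^ 2) ≤ 1 / 2 := by
    have : K0 * n ^ ((P + 6 : ℕ) : ℝ) * (((k : ℝ) + 2) * n / M) ^ s * M ^ 2 =
        K0 * n ^ (P + 6) * ((((k : ℝ) + 2) * n / M) ^ s * M ^ 2) := by
      rw [Real.rpow_natCast]; ring
    rw [← this]; exact hgain
  have hii := gain_bd ha0 hC hnone hy (by positivity : (0 : ℝ) ≤ k) hK0' hM0 hs hKhi hB1 hK0 rfl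
    hgx
  -- (i)
  have hKsq : 1 ≤ K ^ 2 := one_le_pow₀ hK1
  have hyK1 : y ≤ y * K ^ 2 := le_mul_of_one_le_right hy.le hKsq
  have hi : a0 * (R * (K * M) ^ 6) ≤ y * K ^ 2 / 16 := by
    have h1 := hpe n hnn2
    rw [← hyn] at h1
    have h3 : (K * M) ^ (P + 12) ≤ a ^ (P + 12) * n ^ ((p + 1) * (P + 12)) := by
      calc (K * M) ^ (P + 12) ≤ (a * n ^ (p + 1)) ^ (P + 12) := pow_le_pow_left₀ hX0 hXhi _
        _ = _ := by rw [mul_pow, ← pow_mul]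
    have h2 : a0 * (R * (K * M) ^ 6) ≤
        (16 * a0 * A * a ^ (P + 12) * n ^ (P + (p + 1) * (P + 12)) * y) * (y / 16) := by
      calc a0 * (R * (K * M) ^ 6)
          = (a0 * A * n ^ P * y ^ 2) * (K * M) ^ (P + 12) := by
            rw [hRdef]; ring
        _ ≤ (a0 * A * n ^ P * y ^ 2) * (a ^ (P + 12) * n ^ ((p + 1) * (P + 12))) :=
            mul_le_mul_of_nonneg_left h3 (by positivity)
        _ = _ := by rw [pow_add n P]; ring
    refine h2.trans ?_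
    calc (16 * a0 * A * a ^ (P + 12) * n ^ (P + (p + 1) * (P + 12)) * y) * (y / 16)
        ≤ 1 * (y / 16) := mul_le_mul_of_nonneg_right h1 (by positivity)
      _ ≤ y * K ^ 2 / 16 := by linarith
  -- (iv)
  have hiv : a1 * Real.exp (-(K * M) ^ 2) ≤ y * K ^ 2 / 8 := by
    have h1 := hpe3 n hnn3
    -- `(K M)² ≥ 2 n`
    have h2 : 2 * n ≤ (K * M) ^ 2 := by
      have h21 : 2 * n ≤ K * M := by
        calc 2 * n ≤ M * K := mul_le_mul hM2 hKn hn0.le hM0.le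
          _ = K * M := mul_comm _ _
      have h22 : K * M ≤ (K * M) ^ 2 := by
        rw [sq]; exact le_mul_of_one_le_left hX0 hX1
      linarith
    have h3 : Real.exp (-(K * M) ^ 2) ≤ Real.exp (-n) * y := by
      rw [hyn, ← Real.exp_add]
      refine Real.exp_le_exp.2 ?_
      linarith
    calc a1 * Real.exp (-(K * M) ^ 2)
        ≤ a1 * (Real.exp (-n) * y) := mul_le_mul_of_nonneg_left h3 ha1
      _ = (8 * a1 * n ^ 0 * Real.exp (-n)) * (y / 8) := by ring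
      _ ≤ 1 * (y / 8) := mul_le_mul_of_nonneg_right h1 (by positivity)
      _ ≤ y * K ^ 2 / 8 := by linarith
  have e1 : a0 * ∑ m ∈ Icc 1 ((Kn k y * Mn p y) ^ 2),
      (m : ℝ) ^ 2 * (D m + C * (K * M) ^ 4 * y ^ 2) ≤ y * K ^ 2 / 16 + y * K ^ 2 / 16 := by
    refine (mul_le_mul_of_nonneg_left hsum ha0).trans ?_
    rw [mul_add]
    exact add_le_add hi hii
  have e3 : y / 4 * K ^ 2 = y * K ^ 2 / 16 + y * K ^ 2 / 16 + y * K ^ 2 / 8 := by ring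
  rw [e3]
  exact add_le_add e1 hiv

end Vale.Agent.P159.TM.H556
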